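import Vale.Agent.P225.System.Decay.Segment

/-!
P225, module F (helper file for the decay): exponential weights in the Casimir sum, uniformly in
the truncation, the parameters and the time.
-/

noncomputable section

namespace Vale.Agent.P225.Decay

open Matrix SU2 Set
open scoped ComplexOrder Matrix.Norms.L2Operator

variable {d : PathData} {r₂ β φ₀ : ℝ}

/-- A psd matrix below a multiple of the weight becomes bounded against a decreasing weight. -/
theorem norm_mul_wgt_neg {n : Type*} [Fintype n] [DecidableEq n] {V : Op n} {f : n → ℝ} {C σ : ℝ}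
    (hC : 0 ≤ C) (hσ : 0 < σ) (hV : V.PosSemidef) (hle : (rdiag (fun x => C * f x) - V).PosSemidef)
    (hcomm : Commute (rdiag f) V) : ‖V * wgt (fun x => -σ * f x)‖ ≤ C / σ := by
  open scoped MatrixOrder in
  set h : Op n := wgt fun x => -σ / 2 * f x
  have hh : star h = h := (isHermitian_wgt _).star_eq
  have e : V * wgt (fun x => -σ * f x) = star h * V * h := by
    have hc : Commute h V := commute_wgt hcomm (-σ / 2)
    rw [hh, hc.eq, mul_assoc, wgt_add]
    congr 2; funext x; simp only [Pi.add_apply]; ring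
  rw [e]
  have hCσ : 0 ≤ C / σ := div_nonneg hC hσ.le
  refine (CStarAlgebra.norm_le_iff_le_algebraMap _ hCσ
    (Matrix.nonneg_iff_posSemidef.2 (star_conj_posSemidef hV h))).2 ?_
  rw [Algebra.algebraMap_eq_smul_one, Matrix.le_iff]
  have h1 : star h * rdiag (fun x => C * f x) * h =
      rdiag fun x => C * f x * Real.exp (-σ * f x) := by
    rw [hh, (wgt_commute_rdiag _ _).eq, mul_assoc, wgt_add, rdiag, rdiag, wgt, diagonal_mul_diagonal]
    congr 1; funext x
    simp only [Pi.add_apply, show (-σ / 2 * f x + -σ / 2 * f x) = -σ * f x by ring]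
    push_cast; rfl
  have h2 := (star_conj_posSemidef hle h).add (rdiag_psd (n := n)
    (f := fun x => C / σ - C * f x * Real.exp (-σ * f x)) fun x => ?_)
  · rw [mul_sub, sub_mul, h1, ← rdiag_sub] at h2
    have e1 : rdiag (fun _ : n => C / σ) = (C / σ) • (1 : Op n) := by
      rw [rdiag, ← diagonal_one, ← diagonal_smul]
      congr 1; funext x; simp [Complex.real_smul]
    rw [← e1]
    rw [add_comm, sub_add_sub_cancel] at h2
    exact h2
  · rw [sub_nonneg, le_div_iff₀ hσ]
    have hy := Real.add_one_le_exp (σ * f x)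
    rw [show -σ * f x = -(σ * f x) by ring, Real.exp_neg, mul_comm, ← mul_assoc,
      ← div_eq_mul_inv, div_le_iff₀ (Real.exp_pos _)]
    nlinarith [mul_le_mul_of_nonneg_left hy hC]

theorem rdiag_norm_le {n : Type*} [Fintype n] [DecidableEq n] {f : n → ℝ} {C : ℝ} (hC : 0 ≤ C)
    (h : ∀ x, |f x| ≤ C) : ‖rdiag f‖ ≤ C := by
  rw [rdiag, l2_opNorm_diagonal, pi_norm_le_iff_of_nonneg hC]
  intro x
  rw [Complex.norm_real]; exact h x

theorem truncW_pre_diag (hd : d.Good r₂ β φ₀) {p : Param} (hp : InBox d p) (K : ℕ) {t : ℝ}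
    (h0 : startTime r₂ ≤ t) (h1 : t ≤ clusterStart d 0) :
    truncW d r₂ β p K t = rdiag fun x => freeRate d r₂ β (lab x.out) t :=
  truncW_pre hd hp K h0 h1

theorem rate_cont (hd : d.Good r₂ β φ₀) (l : Lbl) :
    ContinuousOn (freeRate d r₂ β l) (Ici (startTime r₂)) := fun t ht =>
  ((freeRate_spec hd l).2 t ht).continuousAt.continuousWithinAt

theorem back_pre (hd : d.Good r₂ β φ₀) {p : Param} (hp : InBox d p) (K : ℕ) {a b : ℝ}
    (ha : startTime r₂ ≤ a) (hab : a ≤ b) (hb : b ≤ clusterStart d 0) :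
    truncBack d r₂ β p K a b =
      rdiag fun x => Real.exp (-∫ u in a..b, freeRate d r₂ β (lab x.out) u) := by
  have hI : ∀ (x : PntK K) (t : ℝ), t ∈ Icc a b →
      ∃ F : ℝ → ℝ, Continuous F ∧ EqOn F (freeRate d r₂ β (lab x.out)) (Icc a b) := fun x t _ =>
    exists_ext ((rate_cont hd (lab x.out)).mono fun u hu => ha.trans hu.1)
  choose F hFc hF using fun x => hI x a (left_mem_Icc.2 hab)
  set R : ℝ → Op (PntK K) := fun t => rdiag fun x => Real.exp (-∫ u in a..t, F x u) with hR
  have hback : IsBack (truncW d r₂ β p K) R a b := by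
    refine ⟨by simp [hR, rdiag], fun t ht => ?_⟩
    have h1 : HasDerivAt (fun t x => ((Real.exp (-∫ u in a..t, F x u) : ℝ) : ℂ))
        (fun x => ((Real.exp (-∫ u in a..t, F x u) * -F x t : ℝ) : ℂ)) t := hasDerivAt_pi.2 fun x =>
      ((((hFc x).integral_hasStrictDerivAt a t).hasDerivAt.neg).exp).ofReal_comp
    have h2 := (LinearMap.toContinuousLinearMap
      (diagonalLinearMap (PntK K) ℝ ℂ)).hasFDerivAt.comp_hasDerivAt t h1
    refine h2.congr_deriv ?_
    rw [truncW_pre_diag hd hp K (ha.trans ht.1) (ht.2.trans hb)]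
    simp [hR, rdiag, diagonal_mul_diagonal, fun x => hF x ht, ← diagonal_neg]
  rw [back_unique (truncW_cont hd hp K ha) (truncBack_spec hd hp K ha b) hback b ⟨hab, le_rfl⟩, hR]
  simp only
  congr 1; funext x
  congr 2
  exact intervalIntegral.integral_congr fun u hu => hF x (by rwa [uIcc_of_le hab] at hu)

theorem exists_segment (hd : d.Good r₂ β φ₀) {a : ℝ} (ha : clusterStart d 0 ≤ a) :
    ∃ i l, ∃ _ : l < (d.plan (d.j₀ + i)).length, segStart d i l ≤ a ∧ a < segEnd d i l := by
  classical
  obtain ⟨-, C, hC, hgrow⟩ := clusterStart_bounds hd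
  have hex : ∃ i, a < clusterStart d (i + 1) := by
    obtain ⟨n, hn⟩ := exists_nat_gt (C * a)
    refine ⟨n, lt_of_lt_of_le ?_ (hgrow (n + 1)).1⟩
    have h1 : (n : ℝ) + 1 ≤ ((d.j₀ + (n + 1) : ℕ) : ℝ) := by
      push_cast; linarith [Nat.cast_nonneg (α := ℝ) d.j₀]
    have h0 : (0 : ℝ) ≤ n := Nat.cast_nonneg _
    have h2 : ((d.j₀ + (n + 1) : ℕ) : ℝ) ≤ ((d.j₀ + (n + 1) : ℕ) : ℝ) ^ 6 :=
      le_self_pow₀ (by linarith) (by norm_num)
    rw [lt_inv_mul_iff₀ hC]
    linarith
  set i := Nat.find hex with hi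
  have hhi : a < clusterStart d (i + 1) := Nat.find_spec hex
  have hlo : segStart d i 0 ≤ a := by
    rcases Nat.eq_zero_or_pos i with h | h
    · rw [h, segStart_zero]; exact ha
    · obtain ⟨k, hk⟩ : ∃ k, i = k + 1 := ⟨i - 1, by omega⟩
      rw [hk, segStart_succ]
      exact not_lt.1 (Nat.find_min hex (show k < i by omega))
  have hn : 0 < (d.plan (d.j₀ + i)).length := List.length_pos_iff.2 (hd.isPlan.nonempty _)
  set l := Nat.findGreatest (fun l => segStart d i l ≤ a) ((d.plan (d.j₀ + i)).length - 1) with hl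
  have hle : l ≤ (d.plan (d.j₀ + i)).length - 1 := Nat.findGreatest_le _
  refine ⟨i, l, by omega, Nat.findGreatest_spec (P := fun l => segStart d i l ≤ a)
    (Nat.zero_le _) hlo, ?_⟩
  unfold segEnd
  split_ifs with h
  · exact not_le.1 (Nat.findGreatest_is_greatest (P := fun l => segStart d i l ≤ a)
      (show l < l + 1 by omega) (by omega))
  · exact hhi

/-- The main estimate: two time units gain an exponential weight in the Casimir sum. -/
theorem exists_gain (period : ℕ) (plan : ℕ → List StagePlan) (box : ℝ) :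
    ∃ j₁ : ℕ, ∀ (d : PathData) (r₂ β φ₀ : ℝ), d.period = period → d.plan = plan → d.box = box →
      j₁ ≤ d.j₀ → d.Good r₂ β φ₀ → ∃ κ C : ℝ, 0 < κ ∧ ∀ p : Param, InBox d p →
        ∀ (K : ℕ) (a b : ℝ), startTime r₂ ≤ a → a + 2 ≤ b →
          ‖wgt (fun x : PntK K => κ * ptWeight x) * truncBack d r₂ β p K a b‖ ≤ C ∧
          ‖wgt (fun x : PntK K => κ * ptWeight x) *
            (truncW d r₂ β p K a * truncBack d r₂ β p K a b)‖ ≤ C := by
  obtain ⟨j₁, hres⟩ := exists_residual period plan box
  refine ⟨j₁, fun d r₂ β φ₀ hper hplan hbox hj hd => ?_⟩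
  obtain ⟨c₀, C₀, hc₀, hC₀, hres⟩ := hres d r₂ β φ₀ hper hplan hbox hj hd
  obtain ⟨cb, Cb, hcb, hCb, href⟩ := exists_ref_bounds hd
  obtain ⟨cs, Cs, hcs, hCs, hstart⟩ := exists_start_bounds hd
  -- the smaller weights
  set τ := min (min c₀ cb) cs with hτdef
  have hτ : 0 < τ := lt_min (lt_min hc₀ hcb) hcs
  set κ := τ / 32 with hκdef
  have hκ : 0 < κ := by positivity
  -- inside one segment, over a unit step
  have hin : ∀ p, InBox d p → ∀ (K i l : ℕ) (hl : l < (d.plan (d.j₀ + i)).length) (τ' : ℝ),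
      0 ≤ τ' → τ' ≤ τ → ∀ a v, segStart d i l ≤ a → a ≤ v → v ≤ segEnd d i l → ∀ M : Op (PntK K),
      ‖wgt (fun x => τ' * blkWeight ((d.plan (d.j₀ + i))[l]).gauge x) *
        (truncBack d r₂ β p K a v * M)‖ ≤
          ‖wgt (fun x => τ' * blkWeight ((d.plan (d.j₀ + i))[l]).gauge x) * M‖ + C₀ * (v - a) * ‖M‖ ∧
      (v = a + 1 → ‖wgt (fun x => τ' * blkWeight ((d.plan (d.j₀ + i))[l]).gauge x) *
        (truncBack d r₂ β p K a v * M)‖ ≤ (1 + C₀) * ‖M‖) := by
    intro p hp K i l hl τ' h0 h1 a v ha hav hv M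
    obtain ⟨hops, hr⟩ := hres p hp K i l hl
    have hb := href p hp K i l _ hl hops
    refine segment_step hd hp hl (h1.trans ((min_le_left _ _).trans (min_le_right _ _)))
      (fun t ht => ⟨(hb t ht).1, (hb t ht).2.1⟩) (fun t ht => ?_) ha hav hv M
    exact (norm_mul_wgt_mono _ fun x => mul_le_mul_of_nonneg_right
      (h1.trans ((min_le_left _ _).trans (min_le_left _ _))) (blkWeight_nonneg _ x)).trans (hr t ht)
  -- gain in the weight of one gauge, at most a quarter of `τ`
  have hseg : ∀ p, InBox d p → ∀ (K i l : ℕ) (hl : l < (d.plan (d.j₀ + i)).length) (a : ℝ),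
      segStart d i l ≤ a → a < segEnd d i l →
      ‖wgt (fun x => τ / 4 * blkWeight ((d.plan (d.j₀ + i))[l]).gauge x) *
        truncBack d r₂ β p K a (a + 2)‖ ≤ 1 + 2 * C₀ := by
    intro p hp K i l hl a ha hae
    have ha0 : startTime r₂ ≤ a := (segStart_gt hd i l).le.trans ha
    set e := segEnd d i l
    by_cases h1 : a + 1 ≤ e
    · rw [back_comp hd hp K ha0 (b := a + 1) (by linarith) (by linarith)]
      refine ((hin p hp K i l hl (τ / 4) (by positivity) (by linarith) a (a + 1) ha (by linarith) h1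
        _).2 rfl).trans ((mul_le_of_le_one_right (by linarith)
          (back_one_le hd hp K (by linarith) (by linarith))).trans (by linarith))
    · obtain ⟨i', l', hl', he'⟩ := succ_segment hd hl
      rw [back_comp hd hp K ha0 (b := e) hae.le (by linarith)]
      refine ((hin p hp K i l hl (τ / 4) (by positivity) (by linarith) a e ha hae.le le_rfl _).1).trans ?_
      have hM1 : ‖truncBack d r₂ β p K e (a + 2)‖ ≤ 1 :=
        back_one_le hd hp K (ha0.trans hae.le) (by linarith)
      have hA : ‖wgt (fun x => τ / 4 * blkWeight ((d.plan (d.j₀ + i))[l]).gauge x) *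
          truncBack d r₂ β p K e (a + 2)‖ ≤ 1 + C₀ := by
        refine le_trans (norm_wgt_mul_mono _
          (g := fun x => τ * blkWeight ((d.plan (d.j₀ + i'))[l']).gauge x) fun x => ?_) ?_
        · have h2 := (weight_compare ((d.plan (d.j₀ + i))[l]).gauge x).1.trans
            (weight_compare ((d.plan (d.j₀ + i'))[l']).gauge x).2
          nlinarith [blkWeight_nonneg ((d.plan (d.j₀ + i'))[l']).gauge x]
        · have hlong := seg_long hd.j₀_pos hl'
          rw [back_comp hd hp K (ha0.trans hae.le) (b := e + 1) (by linarith) (by linarith)]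
          exact ((hin p hp K i' l' hl' τ hτ.le le_rfl e (e + 1) (le_of_eq he') (by linarith)
            (by linarith) _).2 rfl).trans
            (mul_le_of_le_one_right (by linarith) (back_one_le hd hp K (by linarith) (by linarith)))
      have : C₀ * (e - a) * ‖truncBack d r₂ β p K e (a + 2)‖ ≤ C₀ :=
        (mul_le_of_le_one_right (mul_nonneg hC₀ (by linarith)) hM1).trans
          (mul_le_of_le_one_right hC₀ (by linarith))
      linarith
  -- the short step, in the Casimir weight
  have hmain : ∀ p, InBox d p → ∀ (K : ℕ) (a : ℝ), startTime r₂ ≤ a →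
      ‖wgt (fun x : PntK K => 2 * κ * ptWeight x) * truncBack d r₂ β p K a (a + 2)‖ ≤ 1 + 2 * C₀ := by
    intro p hp K a ha
    by_cases hpre : clusterStart d 0 ≤ a
    · obtain ⟨i, l, hl, h1, h2⟩ := exists_segment hd hpre
      refine (norm_wgt_mul_mono _ fun x => ?_).trans (hseg p hp K i l hl a h1 h2)
      have := mul_le_mul_of_nonneg_left (weight_compare ((d.plan (d.j₀ + i))[l]).gauge x).2
        (show 0 ≤ 2 * κ by linarith)
      have h0 := mul_nonneg hτ.le (blkWeight_nonneg ((d.plan (d.j₀ + i))[l]).gauge x)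
      refine this.trans ?_
      rw [hκdef]; linarith
    rw [not_le] at hpre
    set c := clusterStart d 0
    by_cases h1 : a + 1 ≤ c
    · rw [back_comp hd hp K ha (b := a + 1) (by linarith) (by linarith), ← mul_assoc,
        back_pre hd hp K ha (by linarith) h1]
      refine (norm_mul_le _ _).trans ((mul_le_of_le_one_right (norm_nonneg _)
        (back_one_le hd hp K (by linarith) (by linarith))).trans (le_trans ?_ (by linarith : (1 : ℝ) ≤ _)))
      rw [wgt, rdiag, diagonal_mul_diagonal, l2_opNorm_diagonal, pi_norm_le_iff_of_nonneg zero_le_one]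
      intro x
      rw [← Complex.ofReal_mul, Complex.norm_real, Real.norm_eq_abs, ← Real.exp_add, Real.abs_exp,
        Real.exp_le_one_iff]
      have hlow : ∀ u ∈ Icc a (a + 1), 2 * κ * ptWeight x ≤ freeRate d r₂ β (lab x.out) u := fun u hu => by
        refine le_trans ?_ (hstart K 0 x u (ha.trans hu.1)).1
        have := (weight_compare (0 : Fin 3) x).2
        have h3 : τ ≤ cs := min_le_right _ _
        nlinarith [blkWeight_nonneg (0 : Fin 3) x]
      have h4 := intervalIntegral.integral_mono_on (show a ≤ a + 1 by linarith)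
        intervalIntegrable_const
        (((rate_cont hd (lab x.out)).mono fun u hu => ha.trans hu.1).intervalIntegrable_of_Icc
          (μ := MeasureTheory.volume) (by linarith)) hlow
      rw [intervalIntegral.integral_const, smul_eq_mul, add_sub_cancel_left, one_mul] at h4
      linarith
    · have hl : 0 < (d.plan (d.j₀ + 0)).length := List.length_pos_iff.2 (hd.isPlan.nonempty _)
      have hlong := seg_long hd.j₀_pos hl
      rw [segStart_zero] at hlong
      have hR : truncBack d r₂ β p K a (a + 2) =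
          truncBack d r₂ β p K a c * (truncBack d r₂ β p K c (c + 1) *
            truncBack d r₂ β p K (c + 1) (a + 2)) := by
        rw [← back_comp hd hp K (ha.trans hpre.le) (by linarith) (by linarith),
          ← back_comp hd hp K ha hpre.le (by linarith)]
      rw [hR, back_pre hd hp K ha hpre.le le_rfl, ← mul_assoc,
        (wgt_commute_rdiag _ _).eq, mul_assoc]
      refine (norm_mul_le _ _).trans ((mul_le_of_le_one_left (norm_nonneg _) ?_).trans ?_)
      · rw [← back_pre hd hp K ha hpre.le le_rfl]; exact back_one_le hd hp K ha hpre.le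
      · refine (norm_wgt_mul_mono _ fun x => ?_).trans
          (((hin p hp K 0 0 hl τ hτ.le le_rfl c (c + 1) (le_of_eq segStart_zero) (by linarith)
            (by linarith) _).2 rfl).trans ((mul_le_of_le_one_right (by linarith)
              (back_one_le hd hp K (by linarith) (by linarith))).trans (by linarith)))
        have := (weight_compare ((d.plan (d.j₀ + 0))[0]).gauge x).2
        nlinarith [blkWeight_nonneg ((d.plan (d.j₀ + 0))[0]).gauge x]
  refine ⟨κ, (1 + 2 * C₀) * (1 + Cb / (τ / 16) + Cs / κ) + C₀, hκ, fun p hp K a b ha hab => ?_⟩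
  have hCn : 0 ≤ Cb / (τ / 16) ∧ 0 ≤ Cs / κ :=
    ⟨div_nonneg hCb (by positivity), div_nonneg hCs hκ.le⟩
  have hC1 : 0 ≤ (1 + 2 * C₀) * (Cb / (τ / 16)) ∧ 0 ≤ (1 + 2 * C₀) * (Cs / κ) :=
    ⟨mul_nonneg (by linarith) hCn.1, mul_nonneg (by linarith) hCn.2⟩
  have hb0 : ‖truncBack d r₂ β p K (a + 2) b‖ ≤ 1 := back_one_le hd hp K (by linarith) hab
  have hb1 : ‖truncBack d r₂ β p K a b‖ ≤ 1 := back_one_le hd hp K ha (by linarith)
  have hlong2 : ∀ g : PntK K → ℝ, ‖wgt g * truncBack d r₂ β p K a b‖ ≤
      ‖wgt g * truncBack d r₂ β p K a (a + 2)‖ := fun g => by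
    rw [back_comp hd hp K ha (show a ≤ a + 2 by linarith) hab, ← mul_assoc]
    exact (norm_mul_le _ _).trans (mul_le_of_le_one_right (norm_nonneg _) hb0)
  constructor
  · refine (hlong2 _).trans ((norm_wgt_mul_mono _ fun x => ?_).trans
      ((hmain p hp K a ha).trans (by linarith)))
    nlinarith [mul_nonneg hκ.le (Real.sqrt_nonneg (casSum (lab x.out))),
      show ptWeight x = Real.sqrt (casSum (lab x.out)) from rfl]
  by_cases hpre : clusterStart d 0 ≤ a
  · obtain ⟨i, l, hl, h1, h2⟩ := exists_segment hd hpre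
    set G := ((d.plan (d.j₀ + i))[l]).gauge
    obtain ⟨hops, hr⟩ := hres p hp K i l hl
    obtain ⟨hc, -, hup⟩ := href p hp K i l G hl hops a ⟨h1, h2.le⟩
    have hVpos := (segRef_spec hd hp K i hl).2.2.1 a ⟨h1, h2.le⟩
    set V := segRef d r₂ β p K i l a
    set D := truncW d r₂ β p K a - V
    set σ := τ / 16 with hσ
    refine (norm_wgt_mul_mono _ (g := fun x => σ * blkWeight G x) fun x => ?_).trans ?_
    · refine (mul_le_mul_of_nonneg_left (weight_compare G x).2 hκ.le).trans ?_
      rw [hσ, hκdef]; linarith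
    rw [show truncW d r₂ β p K a = V + D by simp [D], add_mul, mul_add]
    refine (norm_add_le _ _).trans ((add_le_add (a := ‖_‖) (b := (1 + 2 * C₀) * (Cb / σ))
      (c := ‖_‖) (d := C₀) ?_ ?_).trans (by linarith))
    · have hVn := norm_mul_wgt_neg hCb (show 0 < σ by positivity) hVpos hup hc
      have hX : ‖wgt (fun x => 2 * σ * blkWeight G x) * truncBack d r₂ β p K a b‖ ≤ 1 + 2 * C₀ :=
        (hlong2 _).trans ((norm_wgt_mul_mono _ fun x => by
          nlinarith [blkWeight_nonneg G x]).trans (hseg p hp K i l hl a h1 h2))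
      have e : wgt (fun x => σ * blkWeight G x) * (V * truncBack d r₂ β p K a b) =
          (V * wgt (fun x => -σ * blkWeight G x)) *
            (wgt (fun x => 2 * σ * blkWeight G x) * truncBack d r₂ β p K a b) := by
        rw [← mul_assoc, (commute_wgt hc σ).eq, mul_assoc V, mul_assoc V, ← mul_assoc (wgt _) (wgt _),
          wgt_add]
        congr 3; funext x; simp only [Pi.add_apply]; ring
      rw [e, mul_comm (1 + 2 * C₀)]
      exact (norm_mul_le _ _).trans (mul_le_mul hVn hX (norm_nonneg _) hCn.1)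
    · have hherm : D.IsHermitian := (truncW_pos hd hp K ha).1.sub hVpos.1
      rw [← mul_assoc]
      refine (norm_mul_le _ _).trans ((mul_le_of_le_one_right (norm_nonneg _) hb1).trans ?_)
      rw [norm_wgt_mul_herm hherm]
      refine (norm_mul_wgt_mono _ fun x => ?_).trans (hr a ⟨h1, h2.le⟩)
      refine mul_le_mul_of_nonneg_right ?_ (blkWeight_nonneg G x)
      have : τ ≤ c₀ := (min_le_left _ _).trans (min_le_left _ _)
      linarith
  · -- before the first cluster the solution is diagonal
    rw [not_le] at hpre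
    have hW := truncW_pre_diag hd hp K ha hpre.le
    have hWn : ‖wgt (fun x : PntK K => -κ * ptWeight x) * truncW d r₂ β p K a‖ ≤ Cs / κ := by
      rw [hW, wgt, rdiag, diagonal_mul_diagonal, l2_opNorm_diagonal,
        pi_norm_le_iff_of_nonneg hCn.2]
      intro x
      have h1 := hstart K 0 x a ha
      have hr0 : 0 ≤ freeRate d r₂ β (lab x.out) a :=
        le_trans (mul_nonneg hcs.le (blkWeight_nonneg _ x)) h1.1
      have hr1 : freeRate d r₂ β (lab x.out) a ≤ Cs * ptWeight x :=
        h1.2.trans (mul_le_mul_of_nonneg_left (weight_compare (0 : Fin 3) x).1 hCs)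
      rw [← Complex.ofReal_mul, Complex.norm_real, Real.norm_eq_abs,
        abs_of_nonneg (mul_nonneg (Real.exp_pos _).le hr0), neg_mul, Real.exp_neg,
        ← div_eq_inv_mul, div_le_iff₀ (Real.exp_pos _)]
      refine hr1.trans ?_
      have hg : ptWeight x ≤ Real.exp (κ * ptWeight x) / κ := by
        rw [le_div_iff₀ hκ]
        linarith [Real.add_one_le_exp (κ * ptWeight x)]
      refine (mul_le_mul_of_nonneg_left hg hCs).trans (le_of_eq ?_)
      ring
    have hX := (hlong2 _).trans (hmain p hp K a ha)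
    have e : wgt (fun x : PntK K => κ * ptWeight x) *
        (truncW d r₂ β p K a * truncBack d r₂ β p K a b) =
        (wgt (fun x : PntK K => -κ * ptWeight x) * truncW d r₂ β p K a) *
          (wgt (fun x : PntK K => 2 * κ * ptWeight x) * truncBack d r₂ β p K a b) := by
      rw [hW, mul_assoc (wgt fun x : PntK K => -κ * ptWeight x), ← mul_assoc (rdiag _) (wgt _),
        ← (wgt_commute_rdiag _ _).eq, mul_assoc (wgt _) (rdiag _), ← mul_assoc (wgt _) (wgt _),
        wgt_add]
      congr 2; funext x; simp only [Pi.add_apply]; ring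
    rw [e]
    refine (norm_mul_le _ _).trans ((mul_le_mul hWn hX (norm_nonneg _) hCn.2).trans ?_)
    linarith

/-- A power of the size grows slower than an exponential of the weight. -/
theorem size_le_exp (m : ℕ) {κ : ℝ} (hκ : 0 < κ) :
    ∃ B : ℝ, ∀ (K : ℕ) (x : PntK K),
      (m : ℝ) * Real.log ((ptSize x.out : ℝ) + 1) ≤ κ * ptWeight x + B := by
  set t := κ / (6 * ((m : ℝ) + 1)) with ht
  have ht0 : 0 < t := by positivity
  refine ⟨(m : ℝ) * (t - Real.log t), fun K x => ?_⟩
  set y := (ptSize x.out : ℝ) + 1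
  have hy : 0 < y := by positivity
  have h1 : Real.log y ≤ t * y - Real.log t := by
    have := Real.log_le_sub_one_of_pos (mul_pos ht0 hy)
    rw [Real.log_mul ht0.ne' hy.ne'] at this
    linarith
  have h2 : (ptSize x.out : ℝ) ≤ 6 * ptWeight x := by
    have hk : ∀ k, (lab x.out k : ℝ) ≤ 2 * ptWeight x := fun k => by
      have h : cas (lab x.out k) ≤ casSum (lab x.out) := by
        rw [casSum_eq]
        exact Finset.single_le_sum (fun j _ => cas_nonneg (lab x.out j)) (Finset.mem_univ k)
      have hn := Nat.cast_nonneg (α := ℝ) (lab x.out k)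
      have h' : ((lab x.out k : ℝ) / 2) ^ 2 ≤ casSum (lab x.out) := by
        simp only [cas] at h; nlinarith
      linarith [Real.le_sqrt_of_sq_le h', show ptWeight x = Real.sqrt (casSum (lab x.out)) from rfl]
    simp only [ptSize, Fin.sum_univ_three, Nat.cast_add]
    linarith [hk 0, hk 1, hk 2]
  have hm : (0 : ℝ) ≤ m := Nat.cast_nonneg m
  have e1 := mul_le_mul_of_nonneg_left h1 hm
  have e2 : (m : ℝ) * t * (ptSize x.out : ℝ) ≤ ((m : ℝ) + 1) * t * (6 * ptWeight x) :=
    mul_le_mul (mul_le_mul_of_nonneg_right (by linarith) ht0.le) h2 (Nat.cast_nonneg _) (by positivity)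
  have e3 : ((m : ℝ) + 1) * t * (6 * ptWeight x) = κ * ptWeight x := by
    rw [ht]; field_simp
  have e4 : t * y = t * (ptSize x.out : ℝ) + t := by simp [y, mul_add]
  rw [e4] at e1
  linarith

theorem wgt_log_mul_le {K : ℕ} (m : ℕ) {κ B : ℝ}
    (hB : ∀ x : PntK K, (m : ℝ) * Real.log ((ptSize x.out : ℝ) + 1) ≤ κ * ptWeight x + B)
    (M : Op (PntK K)) :
    ‖(diagonal fun x : PntK K => ((((ptSize x.out : ℝ) + 1) ^ m : ℝ) : ℂ)) * M‖ ≤
      Real.exp B * ‖wgt (fun x : PntK K => κ * ptWeight x) * M‖ := by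
  have e : (diagonal fun x : PntK K => ((((ptSize x.out : ℝ) + 1) ^ m : ℝ) : ℂ)) =
      wgt fun x => (m : ℝ) * Real.log ((ptSize x.out : ℝ) + 1) := by
    rw [wgt]; congr 1; funext x
    rw [Real.exp_nat_mul, Real.exp_log (by positivity)]
  rw [e, show Real.exp B * ‖wgt (fun x : PntK K => κ * ptWeight x) * M‖ =
    ‖wgt (fun x : PntK K => κ * ptWeight x + B) * M‖ by
      rw [show (fun x : PntK K => κ * ptWeight x + B) = (fun _ => B) + fun x => κ * ptWeight x by
        funext x; simp [add_comm], ← wgt_add, mul_assoc,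
        show wgt (fun _ : PntK K => B) = Real.exp B • (1 : Op (PntK K)) by
          rw [wgt, ← diagonal_one, ← diagonal_smul]; congr 1; funext x; simp [Complex.real_smul],
        smul_mul_assoc, one_mul, norm_smul, Real.norm_eq_abs, Real.abs_exp]]
  exact norm_wgt_mul_mono M hB

end Vale.Agent.P225.Decay
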