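import Vale.Agent.P225.System.Trunc

/-!
P225, module F (helper file for the decay): the backward map of the truncated solution as a
function of its initial time.
-/

noncomputable section

namespace Vale.Agent.P225.Decay

open Matrix SU2 Set
open scoped ComplexOrder Matrix.Norms.L2Operator

variable {d : PathData} {r₂ β φ₀ : ℝ}

theorem truncW_cont (hd : d.Good r₂ β φ₀) {p : Param} (hp : InBox d p) (K : ℕ) {a b : ℝ}
    (ha : startTime r₂ ≤ a) : ContinuousOn (truncW d r₂ β p K) (Icc a b) := fun t ht =>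
  (((truncW_spec hd hp K).2 b).1 t ⟨ha.trans ht.1, ht.2⟩).continuousAt.continuousWithinAt

theorem truncW_pos (hd : d.Good r₂ β φ₀) {p : Param} (hp : InBox d p) (K : ℕ) {t : ℝ}
    (ht : startTime r₂ ≤ t) : (truncW d r₂ β p K t).PosSemidef :=
  ((truncW_spec hd hp K).2 t).2 t ⟨ht, le_rfl⟩

theorem back_one_le (hd : d.Good r₂ β φ₀) {p : Param} (hp : InBox d p) (K : ℕ) {a b : ℝ}
    (ha : startTime r₂ ≤ a) (hab : a ≤ b) : ‖truncBack d r₂ β p K a b‖ ≤ 1 :=
  back_norm_le_one (truncW_cont hd hp K ha) (truncBack_spec hd hp K ha b)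
    (fun _ ht => truncW_pos hd hp K (ha.trans ht.1)) b ⟨hab, le_rfl⟩

theorem back_comp (hd : d.Good r₂ β φ₀) {p : Param} (hp : InBox d p) (K : ℕ) {a b c : ℝ}
    (ha : startTime r₂ ≤ a) (hab : a ≤ b) (hbc : b ≤ c) :
    truncBack d r₂ β p K a c = truncBack d r₂ β p K a b * truncBack d r₂ β p K b c :=
  back_trans (truncW_cont hd hp K ha) hab hbc (truncBack_spec hd hp K ha c)
    (truncBack_spec hd hp K (ha.trans hab) c) c ⟨hbc, le_rfl⟩

theorem back_self (hd : d.Good r₂ β φ₀) {p : Param} (hp : InBox d p) (K : ℕ) {a : ℝ}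
    (ha : startTime r₂ ≤ a) : truncBack d r₂ β p K a a = 1 :=
  (truncBack_spec hd hp K ha a).1

/-- Derivative in the initial time, on a closed interval. -/
theorem back_deriv_initial (hd : d.Good r₂ β φ₀) {p : Param} (hp : InBox d p) (K : ℕ) {a b : ℝ}
    (ha : startTime r₂ ≤ a) (hab : a ≤ b) :
    ∃ S : ℝ → Op (PntK K), (∀ u ∈ Icc a b, truncBack d r₂ β p K u b = S u) ∧
      ∀ u ∈ Icc a b, HasDerivAt S (truncW d r₂ β p K u * S u) u := by
  obtain ⟨S, hS0, hS⟩ := exists_fwd (truncW_cont hd hp K (b := b) ha)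
  have hR := truncBack_spec hd hp K ha b
  refine ⟨fun u => S u * truncBack d r₂ β p K a b, fun u hu => ?_, fun u hu =>
    ((hS u hu).mul_const _).congr_deriv (by rw [mul_assoc])⟩
  show _ = S u * truncBack d r₂ β p K a b
  rw [back_comp hd hp K ha hu.1 hu.2, ← mul_assoc,
    mul_eq_one_comm.1 (back_mul_fwd hR hS0 hS u hu), one_mul]

/-- Derivative in the initial time. -/
theorem back_deriv (hd : d.Good r₂ β φ₀) {p : Param} (hp : InBox d p) (K : ℕ) {a b : ℝ}
    (ha : startTime r₂ < a) (hab : a < b) :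
    HasDerivAt (fun u => truncBack d r₂ β p K u b)
      (truncW d r₂ β p K a * truncBack d r₂ β p K a b) a := by
  obtain ⟨S, hS, hS'⟩ := back_deriv_initial hd hp K le_rfl (ha.trans hab).le
  rw [hS a ⟨ha.le, hab.le⟩]
  refine (hS' a ⟨ha.le, hab.le⟩).congr_of_eventuallyEq ?_
  filter_upwards [Icc_mem_nhds ha hab] with u hu using hS u hu

/-- Backward maps are determined by the equation. -/
theorem back_unique {n : Type*} [Fintype n] [DecidableEq n] {W R R' : ℝ → Op n} {a b : ℝ}
    (hW : ContinuousOn W (Icc a b)) (hR : IsBack W R a b) (hR' : IsBack W R' a b) :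
    ∀ t ∈ Icc a b, R t = R' t := fun t ht => by
  rw [back_trans hW le_rfl (ht.1.trans ht.2) hR hR' t ht, hR.1, one_mul]

end Vale.Agent.P225.Decay
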