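import Vale.Agent.P225.System.Decay.Path

/-!
P225, module F (helper file for the decay): the truncated operator and the reference of a segment
are comparable with the block weight and commute with it.
-/

noncomputable section

namespace Vale.Agent.P225.Decay

open Matrix Set SU2
open scoped ComplexOrder Matrix.Norms.L2Operator

variable {d : PathData} {r₂ β φ₀ : ℝ} {K : ℕ}

/-- A real diagonal. -/
def rdiag {n : Type*} [DecidableEq n] (f : n → ℝ) : Op n := diagonal fun x => (f x : ℂ)

theorem rdiag_psd {n : Type*} [DecidableEq n] {f : n → ℝ} (h : ∀ x, 0 ≤ f x) :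
    (rdiag f).PosSemidef :=
  Matrix.PosSemidef.diagonal fun x => Complex.zero_le_real.2 (h x)

theorem rdiag_sub {n : Type*} [DecidableEq n] (f g : n → ℝ) :
    rdiag f - rdiag g = rdiag fun x => f x - g x := by
  simp [rdiag, diagonal_sub]

theorem cas_nonneg (a : ℕ) : 0 ≤ cas a := by unfold cas; positivity

theorem casSum_eq (t : Lbl) : casSum t = ∑ k, cas (t k) := by
  simp only [casSum, cas4, cas, Nat.cast_sum, Nat.cast_mul, Nat.cast_add, Finset.sum_div]
  exact Finset.sum_congr rfl fun k _ => by norm_num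

theorem casSum_nonneg (t : Lbl) : 0 ≤ casSum t := by unfold casSum; positivity

/-- The square of the block weight. -/
theorem blkWeight_sq (G : Fin 3) (x : PntK K) :
    blkWeight G x ^ 2 = cas (lab x.out (G + 1)) + cas (lab x.out (G + 2)) :=
  Real.sq_sqrt (add_nonneg (cas_nonneg _) (cas_nonneg _))

theorem blkWeight_nonneg (G : Fin 3) (x : PntK K) : 0 ≤ blkWeight G x := Real.sqrt_nonneg _

theorem casSum_bounds (G : Fin 3) (x : PntK K) :
    blkWeight G x ^ 2 ≤ casSum (lab x.out) ∧ casSum (lab x.out) ≤ 3 * blkWeight G x ^ 2 := by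
  rw [blkWeight_sq, casSum_eq, fin3_sum G]
  obtain ⟨_, h1, -, -⟩ := (lblOK_iff (lab x.out) G).1 x.out.1.2
  have h := cas_nonneg (lab x.out G)
  have h1' : (lab x.out G : ℝ) ≤ lab x.out (G + 1) + lab x.out (G + 2) := by exact_mod_cast h1
  constructor
  · linarith
  · have ha := Nat.cast_nonneg (α := ℝ) (lab x.out G)
    simp only [cas] at h ⊢
    nlinarith [sq_nonneg ((lab x.out (G + 1) : ℝ) - lab x.out (G + 2)),
      mul_le_mul h1' h1' ha (by positivity)]

/-- The weight of a point. -/
def ptWeight (x : PntK K) : ℝ := Real.sqrt (casSum (lab x.out))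

theorem weight_compare (G : Fin 3) (x : PntK K) :
    blkWeight G x ≤ ptWeight x ∧ ptWeight x ≤ 2 * blkWeight G x := by
  obtain ⟨h1, h2⟩ := casSum_bounds G x
  have h0 := blkWeight_nonneg G x
  exact ⟨Real.le_sqrt_of_sq_le h1,
    Real.sqrt_le_iff.2 ⟨by linarith, by nlinarith⟩⟩

theorem lab_eq_zero_of_blkWeight {G : Fin 3} {x : PntK K} (h : blkWeight G x = 0) :
    lab x.out = 0 := by
  have h2 := (casSum_bounds G x).2
  rw [h, casSum_eq] at h2
  have := (Finset.sum_eq_zero_iff_of_nonneg fun k _ => cas_nonneg (lab x.out k)).1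
    (le_antisymm (by linarith) (Finset.sum_nonneg fun k _ => cas_nonneg (lab x.out k)))
  funext k
  have hk := this k (Finset.mem_univ k)
  simp only [cas] at hk
  by_contra hne
  have : (1 : ℝ) ≤ lab x.out k := by
    exact_mod_cast Nat.one_le_iff_ne_zero.2 hne
  nlinarith

theorem blkWeight_gap {G : Fin 3} {x : PntK K} (h : blkWeight G x ≠ 0) : 1 / 2 ≤ blkWeight G x := by
  have hpos : (lab x.out (G + 1) ≠ 0) ∨ (lab x.out (G + 2) ≠ 0) := by
    by_contra hc
    simp only [not_or, not_not] at hc
    exact h (by simp [blkWeight, hc.1, hc.2, cas])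
  refine Real.le_sqrt_of_sq_le ?_
  have h1 := cas_nonneg (lab x.out (G + 1))
  have h2 := cas_nonneg (lab x.out (G + 2))
  have key : ∀ a : ℕ, a ≠ 0 → 3 / 4 ≤ cas a := fun a ha => by
    have : (1 : ℝ) ≤ a := by exact_mod_cast Nat.one_le_iff_ne_zero.2 ha
    simp only [cas]; nlinarith
  rcases hpos with h' | h' <;> linarith [key _ h']

/-- A block operator commutes with functions of the frozen labels. -/
theorem commute_gaugeMat (G : Fin 3) (M : ∀ q, BlkMat q) :
    Commute (rdiag fun x : PntK K => blkWeight G x) (gaugeMat K G M) := by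
  ext x y
  simp only [rdiag, diagonal_mul, mul_diagonal, gaugeMat]
  by_cases h : SameBlk G x.out y.out
  · rw [show blkWeight G x = blkWeight G y by simp only [blkWeight, h.1, h.2.1], mul_comm]
  · rw [gaugeEntry_of_not h]; simp

/-- On the normal point the operator is diagonal. -/
theorem gaugeMat_adQ (G : Fin 3) (P : Fin 3 → ℝ) :
    gaugeMat K G (linkOp (SU2.adQ G P)) = rdiag fun x => ∑ k, P k * cas (lab x.out k) := by
  ext x y
  rw [gaugeMat, gaugeEntry_adQ]
  simp only [rdiag, diagonal_apply, PntK.out_injective.eq_iff]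

/-- Bounds of the inverse Gram matrix give bounds by the block weight. -/
theorem gaugeMat_linkOp_bounds (G : Fin 3) {Q : LinkMat} {lo hi : ℝ} (h : FormIn Q lo hi) :
    (gaugeMat K G (linkOp Q) - rdiag fun x => lo * blkWeight G x ^ 2).PosSemidef ∧
      ((rdiag fun x => hi * blkWeight G x ^ 2) - gaugeMat K G (linkOp Q)).PosSemidef := by
  have e : ∀ c : ℝ, gaugeMat K G (fun q => ((c * (cas q.1 + cas q.2) : ℝ) : ℂ) • (1 : BlkMat q)) =
      rdiag fun x => c * blkWeight G x ^ 2 := fun c => by
    rw [gaugeMat_scalar]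
    simp only [rdiag, blkWeight_sq]
  have hsub : ∀ A B : ∀ q, BlkMat q,
      gaugeMat K G A - gaugeMat K G B = gaugeMat K G fun q => A q - B q := fun A B => by
    have h := gaugeMat_add (K := K) (G := G) (M := fun q => A q - B q) (N := B)
    simp only [sub_add_cancel] at h
    rw [show gaugeMat K G A = _ from h, add_sub_cancel_right]
  obtain ⟨h1, h2⟩ := h.posSemidef
  constructor
  · rw [← e, hsub]
    exact gaugeMat_posSemidef fun q => linkOp_ge h.1 h1 q
  · rw [← e, hsub]
    exact gaugeMat_posSemidef fun q => linkOp_le h.1 h2 q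

/-- Bounds and commutation of the truncated operator on a segment. -/
def OpBounds (d : PathData) (p : Param) (K i l : ℕ) (G : Fin 3) : Prop :=
  ∀ t ∈ Icc (segStart d i l) (segEnd d i l),
    Commute (rdiag fun x : PntK K => blkWeight G x) (truncOp d p K t) ∧
    (truncOp d p K t - rdiag fun x => 1 / 10 * blkWeight G x ^ 2).PosSemidef ∧
    ((rdiag fun x => 2000 * blkWeight G x ^ 2) - truncOp d p K t).PosSemidef

theorem exists_opBounds (period : ℕ) (plan : ℕ → List StagePlan) (box : ℝ) :
    ∃ j₁ : ℕ, ∀ (d : PathData) (r₂ β φ₀ : ℝ), d.period = period → d.plan = plan → d.box = box →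
      j₁ ≤ d.j₀ → d.Good r₂ β φ₀ → ∀ p : Param, InBox d p → ∀ (K i l : ℕ)
      (hl : l < (d.plan (d.j₀ + i)).length),
        OpBounds d p K i l ((d.plan (d.j₀ + i))[l]).gauge := by
  obtain ⟨j₁, hj₁⟩ := exists_stage_form period plan box
  refine ⟨j₁, fun d r₂ β φ₀ hper hplan hbox hj hd p hp K i l hl t ht => ?_⟩
  set G := ((d.plan (d.j₀ + i))[l]).gauge
  rcases seg_cases hd hl ht p with h | ⟨G', hG', hQ'⟩
  · have hgauge : pathGauge d t = G := Sched.pathGauge_of_inStage hd.j₀_pos h
    have hf := hj₁ d r₂ β φ₀ hper hplan hbox hj hd p hp i l t h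
    simp only [truncOp, pathOp, hgauge]
    exact ⟨commute_gaugeMat G _, gaugeMat_linkOp_bounds G hf⟩
  · have hs := hd.scale_mem t (by linarith [(segStart_ge hd.j₀_pos i l).trans ht.1])
    simp only [truncOp, pathOp, hG', hQ', gaugeMat_adQ]
    refine ⟨?_, ?_, ?_⟩
    · simp only [rdiag, Commute, SemiconjBy, diagonal_mul_diagonal, mul_comm]
    all_goals
      rw [rdiag_sub]
      refine rdiag_psd fun x => ?_
      obtain ⟨h1, h2⟩ := casSum_bounds G x
      rw [← Finset.mul_sum, ← casSum_eq]
      have h0 := sq_nonneg (blkWeight G x)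
      nlinarith [hs.1, hs.2]

theorem freeRate_zero (hd : d.Good r₂ β φ₀) {t : ℝ} (ht : startTime r₂ ≤ t) :
    freeRate d r₂ β 0 t = 0 := by
  obtain ⟨h0, hder⟩ := freeRate_spec hd 0
  obtain ⟨-, hν, -, -⟩ := baseCoef_spec hd
  have hcoef : ∀ u, baseCoef d 0 u = 0 := fun u => by simp [baseCoef, cas]
  set w := freeRate d r₂ β 0
  have hc : ContinuousOn w (Icc (startTime r₂) t) := fun u hu =>
    (hder u hu.1).continuousAt.continuousWithinAt
  refine eq_zero_of_deriv_le (f := w) (f' := fun u => -(w u ^ 2) - pathDamp d u * w u)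
    (K := fun u => |w u + pathDamp d u|) (fun u hu => (hder u hu.1).congr_deriv (by rw [hcoef]; ring))
    ((hc.add hν.continuous.continuousOn).abs) (fun u _ => le_of_eq ?_) ?_ t (right_mem_Icc.2 ht)
  · rw [Real.norm_eq_abs, Real.norm_eq_abs, ← abs_mul, ← abs_neg]; congr 1; ring
  · rw [h0]; simp [coreRate]

/-- The damping after the core. -/
theorem damp_mem (hd : d.Good r₂ β φ₀) {t : ℝ} (ht : (d.j₀ : ℝ) ^ 6 - 1 ≤ t) :
    49 / 10 ≤ pathDamp d t ∧ pathDamp d t ≤ 5 := by
  rw [(baseCoef_spec hd).2.2.1 t ht]; exact hd.nu_mem t ht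

theorem startTime_le (hd : d.Good r₂ β φ₀) : startTime r₂ < (d.j₀ : ℝ) ^ 6 - 1 := by
  have := hd.pre_late; unfold startTime; linarith

theorem segStart_gt (hd : d.Good r₂ β φ₀) (i l : ℕ) : startTime r₂ < segStart d i l := by
  linarith [startTime_le hd, segStart_ge hd.j₀_pos i l]

/-- The free rates at the start of a segment are comparable with the block weight. -/
theorem exists_start_bounds (hd : d.Good r₂ β φ₀) :
    ∃ c C : ℝ, 0 < c ∧ 0 ≤ C ∧ ∀ (K : ℕ) (G : Fin 3) (x : PntK K) (t : ℝ), startTime r₂ ≤ t →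
      c * blkWeight G x ≤ freeRate d r₂ β (lab x.out) t ∧
        freeRate d r₂ β (lab x.out) t ≤ C * blkWeight G x := by
  obtain ⟨C, hC, hb⟩ := freeRate_bounds hd
  refine ⟨C⁻¹, 2 * C, inv_pos.2 hC, by linarith, fun K G x t ht => ?_⟩
  by_cases h : lab x.out = 0
  · have hw : blkWeight G x = 0 := by simp [blkWeight, h, cas]
    rw [h, freeRate_zero hd ht, hw]; simp
  · obtain ⟨h1, h2⟩ := hb t ht (lab x.out) x.out.1.2 h
    obtain ⟨h3, h4⟩ := weight_compare G x
    exact ⟨(mul_le_mul_of_nonneg_left h3 (inv_pos.2 hC).le).trans h1,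
      h2.trans ((mul_le_mul_of_nonneg_left h4 hC.le).trans (le_of_eq (by ring)))⟩

/-- The reference of a segment: between multiples of the block weight, commuting with it. -/
theorem exists_ref_bounds (hd : d.Good r₂ β φ₀) :
    ∃ c C : ℝ, 0 < c ∧ 0 ≤ C ∧ ∀ p : Param, InBox d p → ∀ (K i l : ℕ) (G : Fin 3),
      l < (d.plan (d.j₀ + i)).length → OpBounds d p K i l G →
      ∀ t ∈ Icc (segStart d i l) (segEnd d i l),
        Commute (rdiag fun x : PntK K => blkWeight G x) (segRef d r₂ β p K i l t) ∧
        (segRef d r₂ β p K i l t - rdiag fun x => c * blkWeight G x).PosSemidef ∧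
        ((rdiag fun x => C * blkWeight G x) - segRef d r₂ β p K i l t).PosSemidef := by
  obtain ⟨c₁, C₁, hc₁, hC₁, hstart⟩ := exists_start_bounds hd
  refine ⟨min c₁ (1 / 120), max C₁ 45, lt_min hc₁ (by norm_num), le_max_of_le_left hC₁,
    fun p hp K i l G hl hA t ht => ?_⟩
  obtain ⟨h0, hV, hpos, -⟩ := segRef_spec hd hp K i hl
  set V := segRef d r₂ β p K i l
  set a := segStart d i l
  set b := segEnd d i l
  set c := min c₁ (1 / 120)
  set C := max C₁ 45
  have hν : ContinuousOn (pathDamp d) (Icc a b) := (baseCoef_spec hd).2.1.continuous.continuousOn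
  have hνb : ∀ u ∈ Icc a b, 49 / 10 ≤ pathDamp d u ∧ pathDamp d u ≤ 5 := fun u hu =>
    damp_mem hd (by linarith [(segStart_ge hd.j₀_pos i l).trans hu.1])
  have hV0 : V a = rdiag fun x => freeRate d r₂ β (lab x.out) a := h0
  have hsq : ∀ (κ : ℝ) (u : ℝ), (rdiag fun x : PntK K => κ * blkWeight G x) *
      (rdiag fun x : PntK K => κ * blkWeight G x) +
        pathDamp d u • (rdiag fun x : PntK K => κ * blkWeight G x) =
      rdiag fun x => (κ * blkWeight G x) ^ 2 + pathDamp d u * (κ * blkWeight G x) := by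
    intro κ u
    rw [rdiag, rdiag, diagonal_mul_diagonal, ← diagonal_smul, diagonal_add]
    congr 1; funext x; simp [Complex.real_smul]; ring
  refine ⟨riccati_commute hν hV (fun u hu => (hA u hu).1) ?_ t ht, ?_, ?_⟩
  · rw [hV0]; simp only [rdiag, Commute, SemiconjBy, diagonal_mul_diagonal, mul_comm]
  · refine riccati_ge (V := fun _ => rdiag fun x => c * blkWeight G x) (V' := fun _ => 0) hν hV
      (fun u hu => (hpos u hu).1) (fun u _ => (isHermitian_diagonal_of_self_adjoint _ <|
        funext fun _ => Complex.conj_ofReal _)) (fun u _ => hasDerivAt_const u _) (fun u hu => ?_)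
      ?_ t ht
    · have h := (hA u hu).2.1.add (rdiag_psd (n := PntK K)
        (f := fun x => 1 / 10 * blkWeight G x ^ 2 -
          ((c * blkWeight G x) ^ 2 + pathDamp d u * (c * blkWeight G x))) fun x => ?_)
      · rw [zero_add, hsq]
        rw [← rdiag_sub, add_sub, sub_add_cancel] at h
        exact h
      · have hc0 : 0 ≤ c := (lt_min hc₁ (by norm_num)).le
        have hc2 : c ≤ 1 / 120 := min_le_right _ _
        have hw := blkWeight_nonneg G x
        by_cases hz : blkWeight G x = 0
        · simp [hz]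
        · have hg := blkWeight_gap hz
          have e1 : pathDamp d u * (c * blkWeight G x) ≤ 5 * (1 / 120) * blkWeight G x := by
            rw [mul_assoc]
            exact mul_le_mul (hνb u hu).2 (mul_le_mul_of_nonneg_right hc2 hw) (mul_nonneg hc0 hw)
              (by norm_num)
          have e2 : (c * blkWeight G x) ^ 2 ≤ (1 / 120) ^ 2 * blkWeight G x ^ 2 := by
            rw [mul_pow]
            exact mul_le_mul_of_nonneg_right (pow_le_pow_left₀ hc0 hc2 2) (sq_nonneg _)
          nlinarith
    · rw [hV0, rdiag_sub]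
      refine rdiag_psd fun x => sub_nonneg.2 ?_
      exact (mul_le_mul_of_nonneg_right (min_le_left _ _) (blkWeight_nonneg G x)).trans
        (hstart K G x a (segStart_gt hd i l).le).1
  · refine riccati_le (V := fun _ => rdiag fun x => C * blkWeight G x) (V' := fun _ => 0) hν hV
      (fun u hu => (hpos u hu).1) (fun u _ => (isHermitian_diagonal_of_self_adjoint _ <|
        funext fun _ => Complex.conj_ofReal _)) (fun u _ => hasDerivAt_const u _) (fun u hu => ?_)
      ?_ t ht
    · have h := (hA u hu).2.2.add (rdiag_psd (n := PntK K)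
        (f := fun x => (C * blkWeight G x) ^ 2 + pathDamp d u * (C * blkWeight G x) -
          2000 * blkWeight G x ^ 2) fun x => ?_)
      · rw [zero_add, hsq]
        rw [← rdiag_sub, add_comm, sub_add_sub_cancel] at h
        exact h
      · have hC : (45 : ℝ) ≤ C := le_max_right _ _
        have hw := blkWeight_nonneg G x
        have e1 : 0 ≤ pathDamp d u * (C * blkWeight G x) :=
          mul_nonneg (by linarith [(hνb u hu).1]) (mul_nonneg (by linarith) hw)
        nlinarith [mul_le_mul hC hC (by norm_num) (by linarith), sq_nonneg (blkWeight G x)]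
    · rw [hV0, rdiag_sub]
      refine rdiag_psd fun x => sub_nonneg.2 ?_
      exact (hstart K G x a (segStart_gt hd i l).le).2.trans
        (mul_le_mul_of_nonneg_right (le_max_left _ _) (blkWeight_nonneg G x))

end Vale.Agent.P225.Decay
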