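import Vale.Agent.P225.System.Free
import Vale.Agent.P225.System.Trunc

/-!
P225, module F (helper file for the decay): times of a segment and bounds of the inverse Gram
matrix on it, uniformly in the parameters.
-/

noncomputable section

namespace Vale.Agent.P225.Decay

open Matrix Real Set SU2
open scoped ContDiff

/-- Squared length. -/
def nsqL (w : Bool × Fin 3 → ℝ) : ℝ := ∑ a, w a ^ 2

theorem nsqL_nonneg (w : Bool × Fin 3 → ℝ) : 0 ≤ nsqL w := Finset.sum_nonneg fun _ _ => sq_nonneg _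

/-- Bounds of a quadratic form. -/
def FormIn (Q : LinkMat) (lo hi : ℝ) : Prop :=
  Q.IsSymm ∧ ∀ w, lo * nsqL w ≤ w ⬝ᵥ Q *ᵥ w ∧ w ⬝ᵥ Q *ᵥ w ≤ hi * nsqL w

theorem FormIn.posSemidef {Q : LinkMat} {lo hi : ℝ} (h : FormIn Q lo hi) :
    (Q - lo • 1).PosSemidef ∧ (hi • 1 - Q).PosSemidef := by
  have hs : ∀ c : ℝ, (c • (1 : LinkMat)).IsSymm := fun c => Matrix.isSymm_one.smul c
  have hn : ∀ (c : ℝ) (w : Bool × Fin 3 → ℝ), w ⬝ᵥ ((c • (1 : LinkMat)) *ᵥ w) = c * nsqL w := by
    intro c w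
    rw [smul_mulVec, one_mulVec, dotProduct_smul, smul_eq_mul, nsqL]
    congr 1
    simp [dotProduct, sq]
  constructor
  all_goals
    refine Matrix.PosSemidef.of_dotProduct_mulVec_nonneg ?_ fun w => ?_
    · rw [Matrix.IsHermitian, Matrix.conjTranspose_eq_transpose_of_trivial]
      first
        | exact (h.1.sub (hs lo)).eq
        | exact ((hs hi).sub h.1).eq
    · rw [star_trivial, sub_mulVec, dotProduct_sub, hn, sub_nonneg]
      first
        | exact (h.2 w).1
        | exact (h.2 w).2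

theorem FormIn.det {Q : LinkMat} {lo hi : ℝ} (hlo : 0 ≤ lo) (h : FormIn Q lo hi) :
    lo ^ 6 ≤ Q.det ∧ Q.det ≤ hi ^ 6 := by
  have hH : Q.IsHermitian := by
    rw [Matrix.IsHermitian, Matrix.conjTranspose_eq_transpose_of_trivial, h.1.eq]
  have he : ∀ a, lo ≤ hH.eigenvalues a ∧ hH.eigenvalues a ≤ hi := by
    intro a
    have hv := h.2 (hH.eigenvectorBasis a).ofLp
    have hn : nsqL (hH.eigenvectorBasis a).ofLp = 1 := by
      have := hH.eigenvectorBasis.orthonormal.1 a
      rw [EuclideanSpace.norm_eq, Real.sqrt_eq_one] at this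
      simpa [nsqL] using this
    rw [hn, mul_one, mul_one] at hv
    rw [hH.eigenvalues_eq a]
    simpa using hv
  have hd : Q.det = ∏ a, hH.eigenvalues a := by simpa using hH.det_eq_prod_eigenvalues
  have e : ∀ c : ℝ, c ^ 6 = ∏ _a : Bool × Fin 3, c := fun c => by simp [Finset.prod_const]
  rw [hd, e lo, e hi]
  exact ⟨Finset.prod_le_prod (fun a _ => hlo) fun a _ => (he a).1,
    Finset.prod_le_prod (fun a _ => hlo.trans (he a).1) fun a _ => (he a).2⟩

theorem adQ_form (G : Fin 3) (P : Fin 3 → ℝ) (w : Bool × Fin 3 → ℝ) :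
    w ⬝ᵥ SU2.adQ G P *ᵥ w = ∑ k : Fin 3, (P (G + 1) * w (false, k) ^ 2 +
      P (G + 2) * w (true, k) ^ 2 + P G * (w (false, k) + w (true, k)) ^ 2) := by
  simp [dotProduct, Matrix.mulVec, Fintype.sum_prod_type, SU2.adQ, Fin.sum_univ_three]
  ring

theorem adQ_formIn (G : Fin 3) {P : Fin 3 → ℝ} {lo hi : ℝ} (h0 : 0 ≤ P G)
    (h : ∀ k, P k ≤ hi) (h1 : lo ≤ P (G + 1)) (h2 : lo ≤ P (G + 2)) :
    FormIn (SU2.adQ G P) lo (3 * hi) := by
  refine ⟨Sched.adQ_isSymm G P, fun w => ?_⟩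
  have hhi : 0 ≤ hi := h0.trans (h G)
  rw [adQ_form, show nsqL w = ∑ k : Fin 3, (w (false, k) ^ 2 + w (true, k) ^ 2) by
    simp [nsqL, Fintype.sum_prod_type, Finset.sum_add_distrib, add_comm], Finset.mul_sum,
    Finset.mul_sum]
  constructor
  all_goals
    refine Finset.sum_le_sum fun k _ => ?_
    have e1 := mul_le_mul_of_nonneg_right h1 (sq_nonneg (w (false, k)))
    have e2 := mul_le_mul_of_nonneg_right h2 (sq_nonneg (w (true, k)))
    have e3 := mul_le_mul_of_nonneg_right (h (G + 1)) (sq_nonneg (w (false, k)))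
    have e4 := mul_le_mul_of_nonneg_right (h (G + 2)) (sq_nonneg (w (true, k)))
    have e5 := mul_nonneg h0 (sq_nonneg (w (false, k) + w (true, k)))
    have e6 := mul_le_mul_of_nonneg_right (h G) (sq_nonneg (w (false, k) + w (true, k)))
    have e7 := mul_nonneg hhi (sq_nonneg (w (false, k) - w (true, k)))
    linarith

theorem ctrlDir_form (ik : Fin 3 × Fin 3) (w : Bool × Fin 3 → ℝ) :
    |w ⬝ᵥ ctrlDir ik *ᵥ w| ≤ nsqL w := by
  have e : w ⬝ᵥ ctrlDir ik *ᵥ w = 2 * (w (false, ik.1) * w (true, ik.2)) := by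
    obtain ⟨i, k⟩ := ik
    fin_cases i <;> fin_cases k <;>
      · simp [dotProduct, Matrix.mulVec, Fintype.sum_prod_type, ctrlDir, Fin.sum_univ_three]
        ring
  have hne : ((false, ik.1) : Bool × Fin 3) ≠ (true, ik.2) := by simp
  have hsum : w (false, ik.1) ^ 2 + w (true, ik.2) ^ 2 ≤ nsqL w := by
    rw [← Finset.sum_pair hne (f := fun a => w a ^ 2)]
    exact Finset.sum_le_sum_of_subset_of_nonneg (Finset.subset_univ _) fun a _ _ => sq_nonneg _
  rw [e, abs_le]
  constructor <;>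
    nlinarith [sq_nonneg (w (false, ik.1) - w (true, ik.2)),
      sq_nonneg (w (false, ik.1) + w (true, ik.2))]

theorem exists_bump_bound : ∃ B : ℝ, 0 ≤ B ∧ ∀ s, |bump s| ≤ B := by
  obtain ⟨B, hB⟩ := (isCompact_Icc (a := (0 : ℝ)) (b := 1)).exists_bound_of_continuousOn
    Sched.contDiff_bump.continuous.continuousOn
  refine ⟨max B 0, le_max_right _ _, fun s => ?_⟩
  by_cases hs : s ∈ Icc (0 : ℝ) 1
  · exact (hB s hs).trans (le_max_left _ _)
  · rw [Sched.bump_eq_zero, abs_zero]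
    · exact le_max_right _ _
    · simp only [mem_Icc, not_and_or, not_le] at hs
      rcases hs with h | h
      · left; linarith
      · right; linarith

theorem ctrl_form (σ : StagePlan) {q : ℕ → ℝ} {box B : ℝ} (hq : ∀ k, |q k| ≤ box)
    (hB : ∀ s, |bump s| ≤ B) (s : ℝ) (w : Bool × Fin 3 → ℝ) :
    |w ⬝ᵥ stageCtrl σ q s *ᵥ w| ≤ σ.len * (box * B) * nsqL w := by
  rw [stageCtrl, Matrix.sum_mulVec, dotProduct_sum]
  refine (Finset.abs_sum_le_sum_abs _ _).trans ((Finset.sum_le_sum fun k _ => ?_).trans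
    (le_of_eq (by simp [Finset.sum_const, mul_assoc]) :
      ∑ _k : Fin σ.len, box * B * nsqL w ≤ _))
  rw [smul_mulVec, dotProduct_smul, smul_eq_mul, abs_mul, abs_mul]
  have hb : 0 ≤ box := (abs_nonneg _).trans (hq k)
  exact mul_le_mul (mul_le_mul (hq k) (hB _) (abs_nonneg _) hb) (ctrlDir_form _ w) (abs_nonneg _)
    (mul_nonneg hb ((abs_nonneg _).trans (hB 0)))

theorem stageTheta_le_two (σ : StagePlan) (s : ℝ) : stageTheta σ s ≤ 2 := by
  unfold stageTheta
  linarith [smoothTransition.nonneg (2 * s - 1 / 2),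
    smoothTransition.le_one (2 * (s - (σ.len + σ.wait + 1)) - 1 / 2)]

theorem linePar_bounds {P θ : ℝ} (hP : P ∈ Icc (67 / 10 : ℝ) (27 / 4)) (h0 : 0 ≤ θ) (h2 : θ ≤ 2)
    (G : Fin 3) : 0 ≤ linePar P θ G G ∧ (∀ k, linePar P θ G k ≤ 27) ∧
      5 ≤ linePar P θ G (G + 1) ∧ 5 ≤ linePar P θ G (G + 2) := by
  obtain ⟨hP1, hP2⟩ := hP
  set s := Real.sqrt 3 * P / Real.sqrt (1 + 2 * θ) with hs
  have h3 : (17 / 10 : ℝ) ≤ Real.sqrt 3 := Real.le_sqrt_of_sq_le (by norm_num)
  have h3' : Real.sqrt 3 ≤ 2 := Real.sqrt_le_iff.2 ⟨by norm_num, by norm_num⟩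
  have ht : 1 ≤ Real.sqrt (1 + 2 * θ) := Real.one_le_sqrt.2 (by linarith)
  have ht' : Real.sqrt (1 + 2 * θ) ≤ 9 / 4 := Real.sqrt_le_iff.2 ⟨by norm_num, by linarith⟩
  have hs0 : 5 ≤ s := by rw [hs, le_div_iff₀ (by linarith)]; nlinarith
  have hs1 : s ≤ 27 / 2 := by rw [hs, div_le_iff₀ (by linarith)]; nlinarith
  have hne : G + 1 ≠ G ∧ G + 2 ≠ G := by fin_cases G <;> decide
  refine ⟨?_, fun k => ?_, ?_, ?_⟩
  · simp only [linePar, if_pos, ← hs]; exact mul_nonneg (by linarith) h0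
  · simp only [linePar, ← hs]
    split_ifs <;> nlinarith
  · simp only [linePar, if_neg hne.1, ← hs]; linarith
  · simp only [linePar, if_neg hne.2, ← hs]; linarith

theorem stageQ_formIn (σ : StagePlan) {ε P box B : ℝ} {q : ℕ → ℝ}
    (hP : P ∈ Icc (67 / 10 : ℝ) (27 / 4)) (hε : 0 ≤ ε) (hq : ∀ k, |q k| ≤ box)
    (hB : ∀ s, |bump s| ≤ B) (hsmall : 14 * ε * (σ.len * (box * B)) ≤ 1) (s : ℝ) :
    FormIn (stageQ σ ε P q s) (1 / 10) 2000 := by
  obtain ⟨hl0, hl1, hl2, hl3⟩ := linePar_bounds hP (Sched.stageTheta_nonneg σ s)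
    (stageTheta_le_two σ s) σ.gauge
  have hb := adQ_formIn σ.gauge hl0 hl1 hl2 hl3
  set base := SU2.adQ σ.gauge (linePar P (stageTheta σ s) σ.gauge) with hbase
  set Q := base + (Real.sqrt 3 * P * ε) • stageCtrl σ q s with hQ
  have h3 : Real.sqrt 3 * P ≤ 14 := by
    have h : Real.sqrt 3 ≤ 2 := Real.sqrt_le_iff.2 ⟨by norm_num, by norm_num⟩
    nlinarith [hP.1, hP.2]
  have hc0 : 0 ≤ Real.sqrt 3 * P * ε :=
    mul_nonneg (mul_nonneg (Real.sqrt_nonneg 3) (by linarith [hP.1])) hε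
  have hQf : FormIn Q 4 82 := by
    refine ⟨hb.1.add ((Sched.stageCtrl_isSymm σ q s).smul _), fun w => ?_⟩
    rw [hQ, add_mulVec, dotProduct_add, smul_mulVec, dotProduct_smul, smul_eq_mul]
    have hc := ctrl_form σ hq hB s w
    have habs : |Real.sqrt 3 * P * ε * (w ⬝ᵥ stageCtrl σ q s *ᵥ w)| ≤ nsqL w := by
      rw [abs_mul, abs_of_nonneg hc0]
      refine (mul_le_mul_of_nonneg_left hc hc0).trans ?_
      rw [← mul_assoc]
      refine mul_le_of_le_one_left (nsqL_nonneg w) (le_trans ?_ hsmall)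
      exact mul_le_mul_of_nonneg_right (mul_le_mul_of_nonneg_right h3 hε)
        (mul_nonneg (Nat.cast_nonneg _)
          (mul_nonneg ((abs_nonneg _).trans (hq 0)) ((abs_nonneg _).trans (hB 0))))
    have := abs_le.1 habs
    constructor <;> nlinarith [(hb.2 w).1, (hb.2 w).2, nsqL_nonneg w]
  obtain ⟨hd1, hd2⟩ := hQf.det (by norm_num)
  obtain ⟨hb1, hb2⟩ := hb.det (by norm_num)
  have hdQ : 0 < Q.det := lt_of_lt_of_le (by norm_num) hd1
  set c := (base.det / Q.det) ^ (1 / 6 : ℝ) with hc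
  have e6 : ∀ x : ℝ, 0 ≤ x → (x ^ 6) ^ (1 / 6 : ℝ) = x := fun x hx => by
    simpa [one_div] using Real.pow_rpow_inv_natCast hx (n := 6) (by norm_num)
  have hlo : 5 / 82 ≤ c := by
    rw [← e6 (5 / 82) (by norm_num), hc]
    refine Real.rpow_le_rpow (by positivity) ?_ (by norm_num)
    rw [le_div_iff₀ hdQ, div_pow, div_mul_eq_mul_div, div_le_iff₀ (by norm_num)]
    nlinarith
  have hhi : c ≤ 81 / 4 := by
    rw [← e6 (81 / 4) (by norm_num), hc]
    refine Real.rpow_le_rpow (div_nonneg (by linarith [hb1]) hdQ.le) ?_ (by norm_num)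
    rw [div_le_iff₀ hdQ, div_pow, div_mul_eq_mul_div, le_div_iff₀ (by norm_num)]
    nlinarith
  show FormIn (c • Q) (1 / 10) 2000
  refine ⟨hQf.1.smul c, fun w => ?_⟩
  rw [smul_mulVec, dotProduct_smul, smul_eq_mul]
  obtain ⟨hw1, hw2⟩ := hQf.2 w
  have hn := nsqL_nonneg w
  have e1 := mul_le_mul hlo hw1 (by positivity) (le_trans (by norm_num) hlo)
  have e2 := mul_le_mul hhi hw2 (le_trans (by positivity) hw1) (by norm_num : (0 : ℝ) ≤ 81 / 4)
  constructor <;> nlinarith

variable {d : PathData} {r₂ β φ₀ : ℝ}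

theorem segStart_succ (i : ℕ) : segStart d (i + 1) 0 = clusterStart d (i + 1) := by
  simp [segStart, stageStart, planDur]

theorem segStart_zero : segStart d 0 0 = clusterStart d 0 := by
  simp [segStart, stageStart, planDur]

theorem segStart_ge (hj : 1 ≤ d.j₀) (i l : ℕ) : (d.j₀ : ℝ) ^ 6 ≤ segStart d i l :=
  (Sched.j_pow_le_clusterStart hj i).trans (Sched.clusterStart_le_stage hj i l)

/-- Segments have length at least three. -/
theorem seg_long (hj : 1 ≤ d.j₀) {i l : ℕ} (hl : l < (d.plan (d.j₀ + i)).length) :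
    segStart d i l + 3 ≤ segEnd d i l := by
  have hs := Sched.speed_pos (j := d.j₀ + i) (by omega)
  have h3 : segStart d i l + 3 ≤ stageStart d i (l + 1) := by
    rw [segStart, Sched.stageStart_succ i hl]
    have h1 : ((d.plan (d.j₀ + i))[l]).dur * speed (d.j₀ + i) ≤
        ((d.plan (d.j₀ + i))[l]).dur * 1 :=
      mul_le_mul_of_nonneg_left (Sched.speed_le_one _) (le_trans (by norm_num) (Sched.three_le_dur _))
    have h2 : ((d.plan (d.j₀ + i))[l]).dur ≤ ((d.plan (d.j₀ + i))[l]).dur / speed (d.j₀ + i) := by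
      rw [le_div_iff₀ hs]; linarith
    linarith [Sched.three_le_dur (d.plan (d.j₀ + i))[l]]
  unfold segEnd
  split_ifs
  · exact h3
  · linarith [Sched.stage_le_clusterStart_succ hj i (l + 1)]

/-- On a segment the link is in the stage or at the normal point. -/
theorem seg_cases (hd : d.Good r₂ β φ₀) {i l : ℕ} (hl : l < (d.plan (d.j₀ + i)).length) {t : ℝ}
    (ht : t ∈ Icc (segStart d i l) (segEnd d i l)) (p : Param) :
    InStage d t (i, l) ∨ ∃ G : Fin 3, pathGauge d t = G ∧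
      pathQ d p t = SU2.adQ G (fun _ => d.scale t) := by
  have hj := hd.j₀_pos
  by_cases hin : t < stageStart d i (l + 1)
  · exact Or.inl ⟨hl, ht.1, hin⟩
  rw [not_lt] at hin
  right
  have hzero : ∀ i' l', InStage d t (i', l') → t = stageStart d i' l' →
      ∃ G : Fin 3, pathGauge d t = G ∧ pathQ d p t = SU2.adQ G (fun _ => d.scale t) := by
    intro i' l' h e
    refine ⟨_, Sched.pathGauge_of_inStage hj h, ?_⟩
    rw [Sched.pathQ_of_inStage hj h p,
      Sched.stageQ_normal _ _ (hd.scale_pos t) _ (Or.inl (by simp [← e]))]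
  have ht2 := ht.2
  unfold segEnd at ht2
  split_ifs at ht2 with hlen
  · have e : t = stageStart d i (l + 1) := le_antisymm ht2 hin
    refine hzero i (l + 1) ⟨hlen, e.ge, ?_⟩ e
    show t < stageStart d i (l + 1 + 1)
    rw [Sched.stageStart_succ i hlen, e]
    exact lt_add_of_pos_right _ (div_pos (lt_of_lt_of_le (by norm_num) (Sched.three_le_dur _))
      (Sched.speed_pos (by omega)))
  · rcases eq_or_lt_of_le ht2 with e | hlt
    · have h0 : 0 < (d.plan (d.j₀ + (i + 1))).length :=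
        List.length_pos_iff.2 (hd.isPlan.nonempty _)
      have e0 : t = stageStart d (i + 1) 0 := e.trans (segStart_succ i).symm
      refine hzero (i + 1) 0 ⟨h0, e0.ge, ?_⟩ e0
      show t < stageStart d (i + 1) (0 + 1)
      rw [Sched.stageStart_succ (i + 1) h0, e0]
      exact lt_add_of_pos_right _ (div_pos (lt_of_lt_of_le (by norm_num) (Sched.three_le_dur _))
        (Sched.speed_pos (by omega)))
    · have hout : ∀ il, ¬InStage d t il := by
        rintro ⟨i', l'⟩ ⟨hl', h1, h2⟩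
        simp only at hl' h1 h2
        rcases lt_trichotomy i' i with h | h | h
        · have := (Sched.clusterStart_mono hj).monotone (show i' + 1 ≤ i from h)
          linarith [Sched.stage_le_clusterStart_succ hj i' (l' + 1),
            Sched.clusterStart_le_stage hj i (l + 1)]
        · subst h
          linarith [Sched.stageStart_mono hj i' (show l' + 1 ≤ l + 1 by omega)]
        · have := (Sched.clusterStart_mono hj).monotone (show i + 1 ≤ i' from h)
          linarith [Sched.clusterStart_le_stage hj i' l']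
      obtain ⟨hg, hQ⟩ := pathQ_outside hd p hout
      refine ⟨0, hg, ?_⟩
      rw [hQ, if_pos ((segStart_ge hj i l).trans ht.1)]

/-- Uniform bounds of the inverse Gram matrix on stages, for `j₀` large. -/
theorem exists_stage_form (period : ℕ) (plan : ℕ → List StagePlan) (box : ℝ) :
    ∃ j₁ : ℕ, ∀ (d : PathData) (r₂ β φ₀ : ℝ), d.period = period → d.plan = plan → d.box = box →
      j₁ ≤ d.j₀ → d.Good r₂ β φ₀ → ∀ p : Param, InBox d p → ∀ (i l : ℕ) (t : ℝ),
        InStage d t (i, l) → FormIn (pathQ d p t) (1 / 10) 2000 := by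
  obtain ⟨B, hB0, hB⟩ := exists_bump_bound
  set L : ℝ := ((∑ j ∈ Finset.range period, ((plan j).map StagePlan.len).sum : ℕ) : ℝ) with hL
  refine ⟨⌈14 * L * (|box| * B)⌉₊ + 1, fun d r₂ β φ₀ hper hplan hbox hj hd p hp i l t ht => ?_⟩
  rw [Sched.pathQ_of_inStage hd.j₀_pos ht p]
  set σ := (d.plan (d.j₀ + i))[l]'ht.1 with hσ
  have hj1 : 1 ≤ d.j₀ + i := by have := hd.j₀_pos; omega
  refine stageQ_formIn σ (hd.scale_mem t (by
    linarith [Sched.inStage_ge hd.j₀_pos ht])) (Sched.speed_pos hj1).le (hp i l) hB ?_ _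
  have hlen : (σ.len : ℝ) ≤ L := by
    rw [hL]
    refine Nat.cast_le.2 ?_
    have hmod : d.plan (d.j₀ + i) = plan ((d.j₀ + i) % period) := by
      rw [← hplan, ← hper]
      exact ((show Function.Periodic d.plan d.period from hd.isPlan.periodic).map_mod_nat _).symm
    refine le_trans (List.le_sum_of_mem (List.mem_map.2 ⟨σ, ?_, rfl⟩))
      (Finset.single_le_sum (f := fun j => ((plan j).map StagePlan.len).sum) (fun _ _ => Nat.zero_le _)
        (Finset.mem_range.2 (Nat.mod_lt (d.j₀ + i) (hper ▸ hd.isPlan.period_pos))))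
    rw [← hmod]
    exact List.getElem_mem ht.1
  have hb : box = |box| := by rw [abs_of_nonneg (hbox ▸ hd.box_nonneg)]
  have hbox0 : 0 ≤ |box| * B := mul_nonneg (abs_nonneg _) hB0
  rw [hbox, hb]
  set j : ℝ := ((d.j₀ + i : ℕ) : ℝ) with hjr
  have hjge : 14 * L * (|box| * B) + 1 ≤ j := by
    have h1 : ((⌈14 * L * (|box| * B)⌉₊ + 1 : ℕ) : ℝ) ≤ j := Nat.cast_le.2 (by omega)
    push_cast at h1
    linarith [Nat.le_ceil (14 * L * (|box| * B))]
  have hLb : 0 ≤ 14 * L * (|box| * B) := by positivity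
  have hsp : speed (d.j₀ + i) ≤ 1 / j := by
    rw [speed, ← hjr, one_div]
    exact inv_anti₀ (by linarith) (le_self_pow₀ (by linarith) (by norm_num))
  calc 14 * speed (d.j₀ + i) * ((σ.len : ℝ) * (|box| * B))
      ≤ 14 * (1 / j) * (L * (|box| * B)) :=
        mul_le_mul (by linarith) (mul_le_mul_of_nonneg_right hlen hbox0)
          (mul_nonneg (Nat.cast_nonneg _) hbox0)
          (mul_nonneg (by norm_num) (div_nonneg one_pos.le (by linarith)))
    _ = 14 * L * (|box| * B) / j := by ring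
    _ ≤ 1 := by rw [div_le_one (by linarith)]; linarith

end Vale.Agent.P225.Decay
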