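import Vale.Agent.P225.System.Decay.Bounds
import Vale.Agent.P225.System.Decay.Basic

/-!
P225, module F (helper file for the decay): on every segment the solution differs from the
reference by a smoothing residual, and its backward map gains the block weight.
-/

noncomputable section

namespace Vale.Agent.P225.Decay

open Matrix SU2 Set
open scoped ComplexOrder Matrix.Norms.L2Operator

variable {d : PathData} {r₂ β φ₀ : ℝ} {K : ℕ}

theorem wgt_commute_rdiag {n : Type*} [DecidableEq n] [Fintype n] (f g : n → ℝ) :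
    Commute (wgt f) (rdiag g) := by
  simp only [wgt, rdiag, Commute, SemiconjBy, diagonal_mul_diagonal, mul_comm]

theorem wgt_zero {n : Type*} [DecidableEq n] [Fintype n] : wgt (fun _ : n => (0 : ℝ)) = 1 := by
  simp [wgt]

theorem commute_wgt_smul {n : Type*} [Fintype n] [DecidableEq n] {f : n → ℝ} {M : Op n}
    (h : Commute (rdiag f) M) (r : ℝ) : Commute (rdiag fun x => r * f x) M := by
  have e : (rdiag fun x => r * f x) = (r : ℂ) • rdiag f := by
    rw [rdiag, rdiag, ← diagonal_smul]
    congr 1; funext x; simp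
  rw [e]; exact h.smul_left _

/-- A predecessor ends where a segment starts, except for the first one. -/
theorem pred_segment (hd : d.Good r₂ β φ₀) {i l : ℕ} (hl : l < (d.plan (d.j₀ + i)).length) :
    segStart d i l = clusterStart d 0 ∨ ∃ i' l', ∃ _ : l' < (d.plan (d.j₀ + i')).length,
      segEnd d i' l' = segStart d i l := by
  rcases Nat.eq_zero_or_pos l with rfl | hl0
  · rcases Nat.eq_zero_or_pos i with rfl | hi0
    · exact Or.inl segStart_zero
    · obtain ⟨i', rfl⟩ : ∃ i', i = i' + 1 := ⟨i - 1, by omega⟩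
      have hn : 0 < (d.plan (d.j₀ + i')).length := List.length_pos_iff.2 (hd.isPlan.nonempty _)
      refine Or.inr ⟨i', (d.plan (d.j₀ + i')).length - 1, by omega, ?_⟩
      rw [segEnd, if_neg (by omega), segStart_succ]
  · refine Or.inr ⟨i, l - 1, by omega, ?_⟩
    rw [segEnd, if_pos (by omega), Nat.sub_add_cancel hl0]

/-- The segment following one. -/
theorem succ_segment (hd : d.Good r₂ β φ₀) {i l : ℕ} (hl : l < (d.plan (d.j₀ + i)).length) :
    ∃ i' l', ∃ _ : l' < (d.plan (d.j₀ + i')).length, segStart d i' l' = segEnd d i l := by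
  by_cases h : l + 1 < (d.plan (d.j₀ + i)).length
  · exact ⟨i, l + 1, h, by rw [segEnd, if_pos h]⟩
  · exact ⟨i + 1, 0, List.length_pos_iff.2 (hd.isPlan.nonempty _), by
      rw [segEnd, if_neg h, segStart_succ]⟩

/-- The residual is smoothing on every segment up to its start. -/
theorem exists_residual (period : ℕ) (plan : ℕ → List StagePlan) (box : ℝ) :
    ∃ j₁ : ℕ, ∀ (d : PathData) (r₂ β φ₀ : ℝ), d.period = period → d.plan = plan → d.box = box →
      j₁ ≤ d.j₀ → d.Good r₂ β φ₀ → ∃ c₀ C : ℝ, 0 < c₀ ∧ 0 ≤ C ∧ ∀ p : Param, InBox d p →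
        ∀ (K i l : ℕ) (hl : l < (d.plan (d.j₀ + i)).length),
        OpBounds d p K i l ((d.plan (d.j₀ + i))[l]).gauge ∧
        ∀ t ∈ Icc (segStart d i l) (segEnd d i l),
          ‖(truncW d r₂ β p K t - segRef d r₂ β p K i l t) *
            wgt (fun x => c₀ * blkWeight ((d.plan (d.j₀ + i))[l]).gauge x)‖ ≤ C := by
  obtain ⟨C₁, c₁, j₁, hC₁, hc₁, hjump⟩ := segRef_jump period plan box
  obtain ⟨C₂, c₂, j₂, hC₂, hc₂, hnear⟩ := truncW_near period plan box
  obtain ⟨j₃, hops⟩ := exists_opBounds period plan box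
  refine ⟨max j₁ (max j₂ j₃), fun d r₂ β φ₀ hper hplan hbox hj hd => ?_⟩
  have hjump := hjump d r₂ β φ₀ hper hplan hbox (by omega) hd
  have hnear := hnear d r₂ β φ₀ hper hplan hbox (by omega) hd
  have hops := hops d r₂ β φ₀ hper hplan hbox (by omega) hd
  obtain ⟨cb, Cb, -, -, href⟩ := exists_ref_bounds hd
  set c₀ := min c₁ c₂ / 2 with hc₀
  have hc₀pos : 0 < c₀ := by have := lt_min hc₁ hc₂; linarith
  refine ⟨c₀, C₁ + C₂, hc₀pos, by linarith, fun p hp K i l hl => ⟨hops p hp K i l hl, ?_⟩⟩
  set G := ((d.plan (d.j₀ + i))[l]).gauge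
  set a := segStart d i l
  set W := truncW d r₂ β p K
  set V := segRef d r₂ β p K i l
  obtain ⟨hV0, hV, hVpos, -⟩ := segRef_spec hd hp K i hl
  have hnow := hnear p hp K i l hl
  intro t ht
  by_cases hlate : a + 1 ≤ t
  · refine le_trans ((norm_mul_wgt_mono _ fun x => ?_).trans (hnow.2 t ⟨hlate, ht.2⟩)) (by linarith)
    exact mul_le_mul_of_nonneg_right (by have := min_le_right c₁ c₂; linarith) (blkWeight_nonneg G x)
  have hinit : ‖(W a - V a) * wgt (fun x => c₀ * blkWeight G x)‖ ≤ C₁ + C₂ := by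
    rw [show V a = freeDiag d r₂ β K a from hV0]
    rcases pred_segment hd hl with h | ⟨i', l', hl', he⟩
    · rw [show W a = freeDiag d r₂ β K a from
        truncW_pre hd hp K (segStart_gt hd i l).le (le_of_eq h), sub_self, zero_mul, norm_zero]
      linarith
    · set G' := ((d.plan (d.j₀ + i'))[l']).gauge
      have hlong := seg_long hd.j₀_pos hl'
      have h1 := (hnear p hp K i' l' hl').2 a ⟨by linarith, le_of_eq he.symm⟩
      have h2 := hjump p hp K i' l' hl'
      rw [he] at h2
      have h2' : C₁ * speed (d.j₀ + i') * Real.exp (-(24 / 5) * (a - ctrlEnd d i' l')) ≤ C₁ := by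
        have hs := Sched.speed_le_one (d.j₀ + i')
        have hj0 := hd.j₀_pos
        have hs0 : 0 < speed (d.j₀ + i') := Sched.speed_pos (by omega)
        refine mul_le_of_le_one_right (by positivity) ?_ |>.trans
          (mul_le_of_le_one_right hC₁.le hs)
        refine Real.exp_le_one_iff.2 (mul_nonpos_of_nonpos_of_nonneg (by norm_num) ?_)
        rw [sub_nonneg, ctrlEnd]
        set σ := (d.plan (d.j₀ + i'))[l'] with hσ
        have hget : (d.plan (d.j₀ + i'))[l']? = some σ := List.getElem?_eq_getElem hl'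
        simp only [hget, Option.map_some, Option.getD_some]
        have hle : stageStart d i' (l' + 1) ≤ segEnd d i' l' := by
          unfold segEnd
          split_ifs
          · exact le_rfl
          · linarith [Sched.stage_le_clusterStart_succ hd.j₀_pos i' (l' + 1)]
        refine le_trans ?_ (hle.trans he.le)
        rw [Sched.stageStart_succ i' hl']
        refine add_le_add le_rfl (div_le_div_of_nonneg_right ?_ hs0.le)
        rw [← hσ, StagePlan.dur]
        have := Nat.cast_nonneg (α := ℝ) σ.wait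
        have := Nat.cast_nonneg (α := ℝ) σ.dwell
        linarith
      have hwle : ∀ k : ℝ, min c₁ c₂ ≤ k → ∀ x : PntK K,
          c₀ * blkWeight G x ≤ k * blkWeight G' x := fun k hk x => by
        have e1 := (weight_compare G x).1.trans (weight_compare G' x).2
        calc c₀ * blkWeight G x ≤ c₀ * (2 * blkWeight G' x) :=
              mul_le_mul_of_nonneg_left e1 hc₀pos.le
          _ = min c₁ c₂ * blkWeight G' x := by rw [hc₀]; ring
          _ ≤ _ := mul_le_mul_of_nonneg_right hk (blkWeight_nonneg G' x)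
      rw [show W a - freeDiag d r₂ β K a = (W a - segRef d r₂ β p K i' l' a) +
        (segRef d r₂ β p K i' l' a - freeDiag d r₂ β K a) by abel, add_mul]
      refine (norm_add_le _ _).trans ?_
      rw [add_comm C₁]
      exact add_le_add ((norm_mul_wgt_mono _ (hwle c₂ (min_le_right _ _))).trans h1)
        ((norm_mul_wgt_mono _ (hwle c₁ (min_le_left _ _))).trans (h2.trans h2'))
  have hsub : Icc a t ⊆ Icc a (segEnd d i l) := Icc_subset_Icc_right ht.2
  have h := riccati_diff_weight (f := fun x => c₀ * blkWeight G x) (c := 0) ht.1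
    (fun u hu => le_trans (by norm_num) (damp_mem hd (t := u)
      (by linarith [(segStart_ge hd.j₀_pos i l).trans hu.1])).1)
    (baseCoef_spec hd).2.1.continuous.continuousOn
    (fun u hu => ((truncW_spec hd hp K).2 t).1 u ⟨(segStart_gt hd i l).le.trans hu.1, hu.2⟩)
    (fun u hu => hV u (hsub hu)) (fun u hu => truncW_pos hd hp K ((segStart_gt hd i l).le.trans hu.1))
    (fun u hu => hVpos u (hsub hu))
    (fun u hu => commute_wgt_smul (href p hp K i l G hl (hops p hp K i l hl) u (hsub hu)).1 c₀)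
  simp only [neg_zero, zero_mul, Real.exp_zero, one_mul] at h
  exact h.trans hinit

/-- Duhamel between the backward maps of two coefficients, seen through a commuting weight. -/
theorem duhamel_le {n : Type*} [Fintype n] [DecidableEq n] {W V Q S : ℝ → Op n} {a v C : ℝ}
    {f : n → ℝ} (hav : a ≤ v) (hQ : IsBack V Q a v)
    (hS : ∀ u ∈ Icc a v, HasDerivAt S (W u * S u) u)
    (hcw : ∀ u ∈ Icc a v, Commute (wgt f) (Q u)) (hQ1 : ∀ u ∈ Icc a v, ‖Q u‖ ≤ 1)
    (hS1 : ∀ u ∈ Icc a v, ‖S u‖ ≤ 1) (hD : ∀ u ∈ Icc a v, ‖wgt f * (W u - V u)‖ ≤ C)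
    (hSv : S v = 1) (M : Op n) :
    ‖wgt f * (S a * M)‖ ≤ ‖wgt f * (Q v * M)‖ + C * (v - a) * ‖M‖ := by
  set Y : ℝ → Op n := fun u => wgt f * (Q u * S u * M) with hY
  have hY' : ∀ u ∈ Icc a v,
      HasDerivWithinAt Y (wgt f * (Q u * (W u - V u) * S u * M)) (Icc a v) u := fun u hu => by
    refine HasDerivAt.hasDerivWithinAt
      (((((hQ.2 u hu).mul (hS u hu)).mul_const M).const_mul (wgt f)).congr_deriv ?_)
    noncomm_ring
  have hb : ∀ u ∈ Icc a v, ‖wgt f * (Q u * (W u - V u) * S u * M)‖ ≤ C * ‖M‖ := fun u hu => by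
    have e : wgt f * (Q u * (W u - V u) * S u * M) =
        Q u * ((wgt f * (W u - V u)) * (S u * M)) := by
      simp only [← mul_assoc, (hcw u hu).eq]
    rw [e]
    refine (norm_mul_le _ _).trans ((mul_le_of_le_one_left (norm_nonneg _) (hQ1 u hu)).trans ?_)
    refine (norm_mul_le _ _).trans (mul_le_mul (hD u hu) ((norm_mul_le _ _).trans
      (mul_le_of_le_one_left (norm_nonneg _) (hS1 u hu))) (norm_nonneg _)
      ((norm_nonneg _).trans (hD u hu)))
  have hmv := (convex_Icc a v).norm_image_sub_le_of_norm_hasDerivWithin_le hY' hb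
    (left_mem_Icc.2 hav) (right_mem_Icc.2 hav)
  rw [Real.norm_eq_abs, abs_of_nonneg (sub_nonneg.2 hav)] at hmv
  have hYa : Y a = wgt f * (S a * M) := by simp [hY, hQ.1]
  have hYv : Y v = wgt f * (Q v * M) := by simp [hY, hSv]
  rw [← hYa, ← hYv]
  have h := norm_le_norm_add_norm_sub (Y v) (Y a)
  linarith

/-- Duhamel against the reference: inside a segment the backward map passes a weight and, over a
long step, gains one. -/
theorem segment_step (hd : d.Good r₂ β φ₀) {p : Param} (hp : InBox d p) {i l : ℕ}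
    (hl : l < (d.plan (d.j₀ + i)).length) {G : Fin 3} {cb τ C : ℝ} (hτc : τ ≤ cb)
    (href : ∀ t ∈ Icc (segStart d i l) (segEnd d i l),
        Commute (rdiag fun x : PntK K => blkWeight G x) (segRef d r₂ β p K i l t) ∧
        (segRef d r₂ β p K i l t - rdiag fun x => cb * blkWeight G x).PosSemidef)
    (hres : ∀ t ∈ Icc (segStart d i l) (segEnd d i l),
      ‖(truncW d r₂ β p K t - segRef d r₂ β p K i l t) * wgt (fun x => τ * blkWeight G x)‖ ≤ C)
    {a v : ℝ} (ha : segStart d i l ≤ a) (hav : a ≤ v) (hv : v ≤ segEnd d i l) (M : Op (PntK K)) :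
    ‖wgt (fun x => τ * blkWeight G x) * (truncBack d r₂ β p K a v * M)‖ ≤
        ‖wgt (fun x => τ * blkWeight G x) * M‖ + C * (v - a) * ‖M‖ ∧
      (v = a + 1 → ‖wgt (fun x => τ * blkWeight G x) * (truncBack d r₂ β p K a v * M)‖ ≤
        (1 + C) * ‖M‖) := by
  set W := truncW d r₂ β p K
  set V := segRef d r₂ β p K i l
  set f : PntK K → ℝ := fun x => τ * blkWeight G x with hf
  obtain ⟨-, hV, hVpos, -⟩ := segRef_spec hd hp K i hl
  have hsub : Icc a v ⊆ Icc (segStart d i l) (segEnd d i l) := Icc_subset_Icc ha hv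
  have hVc : ContinuousOn V (Icc a v) := fun u hu =>
    (hV u (hsub hu)).continuousAt.continuousWithinAt
  have ha0 : startTime r₂ ≤ a := (segStart_gt hd i l).le.trans ha
  obtain ⟨Q, hQ⟩ := exists_back hVc
  obtain ⟨S, hS, hS'⟩ := back_deriv_initial hd hp K ha0 hav
  have hfc : ∀ u ∈ Icc a v, Commute (rdiag f) (V u) := fun u hu =>
    commute_wgt_smul (href u (hsub hu)).1 τ
  have hcw : ∀ u ∈ Icc a v, Commute (wgt f) (Q u) := fun u hu => by
    simpa using commute_wgt (back_commute hVc hQ hfc u hu) 1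
  have hQ1 : ∀ u ∈ Icc a v, ‖Q u‖ ≤ 1 := back_norm_le_one hVc hQ fun u hu => hVpos u (hsub hu)
  have hSv : S v = 1 := by
    rw [← hS v (right_mem_Icc.2 hav), back_self hd hp K (ha0.trans hav)]
  have hS1 : ∀ u ∈ Icc a v, ‖S u‖ ≤ 1 := fun u hu => by
    rw [← hS u hu]; exact back_one_le hd hp K (ha0.trans hu.1) hu.2
  have hD : ∀ u ∈ Icc a v, ‖wgt f * (W u - V u)‖ ≤ C := fun u hu => by
    rw [norm_wgt_mul_herm ((truncW_pos hd hp K (ha0.trans hu.1)).1.sub (hVpos u (hsub hu)).1)]
    exact hres u (hsub hu)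
  have h1 := duhamel_le hav hQ hS' hcw hQ1 hS1 hD hSv M
  rw [← hS a (left_mem_Icc.2 hav)] at h1
  refine ⟨h1.trans (add_le_add ?_ le_rfl), fun hv1 => h1.trans ?_⟩
  · rw [← mul_assoc, (hcw v (right_mem_Icc.2 hav)).eq, mul_assoc]
    exact (norm_mul_le _ _).trans
      (mul_le_of_le_one_left (norm_nonneg _) (hQ1 v (right_mem_Icc.2 hav)))
  · have hgain := (back_smoothing hav hVc hQ hfc fun u hu => by
      have h := (href u (hsub hu)).2.add (rdiag_psd (n := PntK K)
        (f := fun x => cb * blkWeight G x - f x) fun x => sub_nonneg.2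
          (mul_le_mul_of_nonneg_right hτc (blkWeight_nonneg G x)))
      rw [← rdiag_sub, sub_add_sub_cancel] at h
      exact h).1
    rw [hv1, show a + 1 - a = 1 by ring, funext (fun x => one_mul (f x))] at hgain
    have : ‖wgt f * (Q v * M)‖ ≤ ‖M‖ := by
      rw [← mul_assoc]
      exact (norm_mul_le _ _).trans (mul_le_of_le_one_left (norm_nonneg _) (by rw [hv1]; exact hgain))
    rw [show v - a = 1 by linarith]
    linarith

end Vale.Agent.P225.Decay
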